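import Vale.Agent.P235.H263.Elim
import Vale.Agent.P235.H749.Helly

/-!
# P235, line SX, row [S5a]: an elimination order of a graph of treewidth at most `w` in which the
vertices of a given clique come first
-/

set_option autoImplicit false

namespace Vale.Agent.P235.K5.SX.H23

open Finset Vale.Agent.P235 Vale.Agent.P235.H263

section state

variable {V : Type} [DecidableEq V]

/-- the vertices of `R` come first -/
def First (R D : Finset V) (rk : V → ℕ) : Prop :=
  R ⊆ D ∧ ∀ x ∈ R, ∀ y ∈ D, y ∉ R → rk x < rk y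

theorem First.step {k : ℕ} {bags : Set (Finset V)} {D : Finset V} {rk : V → ℕ} {A : V → Finset V}
    {R : Finset V} (h : Pre k bags D rk A) (hF : First R D rk) {z : V} (hz : z ∉ D) :
    First R (insert z D) (Function.update rk z D.card) := by
  refine ⟨hF.1.trans (subset_insert _ _), fun x hx y hy hyR => ?_⟩
  have hxD := hF.1 hx
  have hxz : x ≠ z := fun e => hz (e ▸ hxD)
  rw [Function.update_of_ne hxz]
  by_cases hyz : y = z
  · rw [hyz, Function.update_self]
    exact h.lt x hxD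
  · rw [Function.update_of_ne hyz]
    exact hF.2 x hx y ((mem_insert.1 hy).resolve_left hyz) hyR

theorem many {k : ℕ} {R N b : Finset V} (M : Finset V) : ∀ {bags : Set (Finset V)} {D : Finset V}
    {rk : V → ℕ} {A : V → Finset V}, Pre k bags D rk A → First R D rk → b ∈ bags → N ⊆ b →
    Disjoint M D → (N ∪ M).card ≤ k + 1 →
    ∃ (bags' : Set (Finset V)) (rk' : V → ℕ) (A' : V → Finset V), Pre k bags' (D ∪ M) rk' A' ∧
      First R (D ∪ M) rk' ∧ bags ⊆ bags' ∧ ∃ c ∈ bags', N ∪ M ⊆ c := by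
  induction M using Finset.induction_on with
  | empty =>
    intro bags D rk A h hF hb hN _ _
    exact ⟨bags, rk, A, by simpa using h, by simpa using hF, subset_rfl, b, hb, by simpa using hN⟩
  | insert z M hzM ih =>
    intro bags D rk A h hF hb hN hd hcard
    have hd' : Disjoint M D := hd.mono_left (subset_insert _ _)
    have hzD : z ∉ D := fun hz => (Finset.disjoint_left.mp hd) (mem_insert_self z M) hz
    have hND : N ⊆ D := hN.trans (h.bag b hb).1
    have hzN : z ∉ N ∪ M := by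
      rw [mem_union, not_or]
      exact ⟨fun hz => hzD (hND hz), hzM⟩
    have e : N ∪ insert z M = insert z (N ∪ M) := by
      rw [union_insert]
    rw [e, card_insert_of_notMem hzN] at hcard
    obtain ⟨bags', rk', A', h', hF', hsub, c, hc, hNc⟩ := ih h hF hb hN hd' (by omega)
    have hzD' : z ∉ D ∪ M := by
      rw [mem_union, not_or]
      exact ⟨hzD, hzM⟩
    have h3 := h'.step hzD' hc hNc (by omega)
    have h4 := First.step h' hF' hzD'
    refine ⟨insert (insert z (N ∪ M)) bags', Function.update rk' z (D ∪ M).card,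
      Function.update A' z (N ∪ M), ?_, ?_, hsub.trans (Set.subset_insert _ _),
      insert z (N ∪ M), Set.mem_insert _ _, ?_⟩
    · rw [union_insert]; exact h3
    · rw [union_insert]; exact h4
    · rw [e]

end state

section tree

variable {V : Type} [DecidableEq V] {ι : Type}

/-- one step along a tree edge -/
theorem grow_step [DecidableEq ι] {k : ℕ} {H : SimpleGraph ι} {B : ι → Finset V} (hH : H.IsTree)
    (hI : ∀ v, (H.induce {t | v ∈ B t}).Preconnected) (hB : ∀ t, (B t).card ≤ k + 1)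
    {r : ι} {S : Finset ι} {R : Finset V}
    (hS : ∀ a ∈ S, ∃ p : H.Walk r a, ∀ x ∈ p.support, x ∈ S) {s t : ι} (hs : s ∈ S) (ht : t ∉ S)
    (hst : H.Adj s t) {bags : Set (Finset V)} {rk : V → ℕ} {A : V → Finset V}
    (h : Pre k bags (S.biUnion B) rk A) (hF : First R (S.biUnion B) rk)
    (hb : ∀ a ∈ S, ∃ c ∈ bags, B a ⊆ c) :
    ∃ (bags' : Set (Finset V)) (rk' : V → ℕ) (A' : V → Finset V),
      Pre k bags' ((insert t S).biUnion B) rk' A' ∧ First R ((insert t S).biUnion B) rk' ∧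
        ∀ a ∈ insert t S, ∃ c ∈ bags', B a ⊆ c := by
  obtain ⟨c, hc, hcB⟩ := hb s hs
  have hBt : (B s ∩ B t) ∪ (B t \ B s) = B t := by
    ext x
    simp only [Finset.mem_union, Finset.mem_inter, Finset.mem_sdiff]
    tauto
  have hd : Disjoint (B t \ B s) (S.biUnion B) := by
    rw [Finset.disjoint_left]
    intro x hx hx'
    obtain ⟨a, ha, hxa⟩ := mem_biUnion.mp hx'
    exact (mem_sdiff.mp hx).2 (both hH hI hS hs ht hst (mem_sdiff.mp hx).1 ha hxa)
  obtain ⟨bags', rk', A', h1, hF1, h2, c', hc', h3⟩ := many (B t \ B s) h hF hc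
    ((inter_subset_left : B s ∩ B t ⊆ B s).trans hcB) hd (by rw [hBt]; exact hB t)
  have e : (insert t S).biUnion B = S.biUnion B ∪ (B t \ B s) := by
    ext x
    rw [biUnion_insert, mem_union, mem_union, mem_sdiff]
    constructor
    · rintro (hx | hx)
      · by_cases hxs : x ∈ B s
        · exact Or.inl (mem_biUnion.mpr ⟨s, hs, hxs⟩)
        · exact Or.inr ⟨hx, hxs⟩
      · exact Or.inl hx
    · rintro (hx | hx)
      · exact Or.inr hx
      · exact Or.inl hx.1
  refine ⟨bags', rk', A', ?_, ?_, ?_⟩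
  · rw [e]
    exact h1
  · rw [e]
    exact hF1
  · intro a ha
    rcases mem_insert.mp ha with rfl | ha
    · exact ⟨c', hc', by rw [hBt] at h3; exact h3⟩
    · obtain ⟨d, hd1, hd2⟩ := hb a ha
      exact ⟨d, h2 hd1, hd2⟩

theorem grow_all [DecidableEq ι] [Fintype ι] {k : ℕ} {H : SimpleGraph ι} {B : ι → Finset V}
    (hH : H.IsTree) (hI : ∀ v, (H.induce {t | v ∈ B t}).Preconnected)
    (hB : ∀ t, (B t).card ≤ k + 1) (r : ι) {R : Finset V} (hR : R ⊆ B r) :
    ∀ m : ℕ, m + 1 ≤ Fintype.card ι → ∃ (S : Finset ι), S.card = m + 1 ∧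
      (∀ a ∈ S, ∃ p : H.Walk r a, ∀ x ∈ p.support, x ∈ S) ∧
      ∃ (bags : Set (Finset V)) (rk : V → ℕ) (A : V → Finset V),
        Pre k bags (S.biUnion B) rk A ∧ First R (S.biUnion B) rk ∧
          ∀ a ∈ S, ∃ c ∈ bags, B a ⊆ c := by
  intro m
  induction m with
  | zero =>
    intro _
    have h0 : Pre k {(∅ : Finset V)} ∅ (fun _ => 0) (fun _ => ∅) := by
      constructor
      · intro x hx; simp at hx
      · intro x hx; simp at hx
      · intro x hx; simp at hx
      · intro x hx; simp at hx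
      · intro x hx; simp at hx
      · intro b hb
        rw [Set.mem_singleton_iff] at hb
        subst hb
        exact ⟨subset_rfl, fun x hx => by simp at hx⟩
      · intro x hx; simp at hx
    obtain ⟨bags0, rk0, A0, g1, g2, c0, hc0, g3⟩ := h0.many (N := ∅) (b := ∅) R
      (Set.mem_singleton _) subset_rfl (by simp) (by
        rw [empty_union]
        exact (card_le_card hR).trans (hB r))
    rw [empty_union] at g1 g3
    have hF0 : First R R rk0 := ⟨subset_rfl, fun x _ y hy hyR => absurd hy hyR⟩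
    have e : R ∪ (B r \ R) = B r := by
      rw [union_sdiff_of_subset hR]
    obtain ⟨bags', rk', A', h1, hF1, h2, c', hc', h3⟩ := many (B r \ R) g1 hF0 hc0 g3
      sdiff_disjoint (by rw [e]; exact hB r)
    rw [e] at h1 hF1 h3
    refine ⟨{r}, by simp, ?_, bags', rk', A', by simpa using h1, by simpa using hF1, ?_⟩
    · intro a ha
      rw [mem_singleton] at ha
      subst ha
      exact ⟨SimpleGraph.Walk.nil, by simp⟩
    · intro a ha
      rw [mem_singleton] at ha
      subst ha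
      exact ⟨c', hc', h3⟩
  | succ m ih =>
    intro hm
    obtain ⟨S, hcard, hS, bags, rk, A, h, hF, hb⟩ := ih (by omega)
    have hne : ∃ t, t ∉ S := by
      by_contra hcon
      have hcon : ∀ t, t ∈ S := fun t => by
        by_contra h'
        exact hcon ⟨t, h'⟩
      have : S = univ := eq_univ_iff_forall.mpr hcon
      rw [this, card_univ] at hcard
      omega
    obtain ⟨t0, ht0⟩ := hne
    have hrS : r ∈ S := by
      have : S.Nonempty := by
        rw [← card_pos]; omega
      obtain ⟨a, ha⟩ := this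
      obtain ⟨p, hp⟩ := hS a ha
      exact hp r p.start_mem_support
    obtain ⟨w⟩ := hH.connected r t0
    obtain ⟨dd, _, hd1, hd2⟩ := w.exists_boundary_dart {x | x ∈ S} hrS ht0
    obtain ⟨bags', rk', A', h', hF', hb'⟩ := grow_step hH hI hB hS hd1 hd2 dd.adj h hF hb
    refine ⟨insert dd.snd S, ?_, ?_, bags', rk', A', h', hF', hb'⟩
    · rw [card_insert_of_notMem hd2, hcard]
    · intro a ha
      rcases mem_insert.mp ha with rfl | ha
      · obtain ⟨p, hp⟩ := hS dd.fst hd1
        refine ⟨p.concat dd.adj, ?_⟩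
        intro x hx
        rw [SimpleGraph.Walk.support_concat, List.mem_append, List.mem_singleton] at hx
        rcases hx with hx | rfl
        · exact mem_insert_of_mem (hp x hx)
        · exact mem_insert_self _ _
      · obtain ⟨p, hp⟩ := hS a ha
        exact ⟨p, fun x hx => mem_insert_of_mem (hp x hx)⟩

/-- the elimination order, in rank form, the clique `R` first -/
theorem exists_rank [Fintype V] {G : SimpleGraph V} {k : ℕ} (hG : TreewidthLE G k)
    (R : Finset V) (hR : ∀ u ∈ R, ∀ v ∈ R, u ≠ v → G.Adj u v) :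
    ∃ (rk : V → ℕ) (A : V → Finset V),
      Function.Injective rk ∧ (∀ x, ∀ y ∈ A x, rk y < rk x) ∧
      (∀ x, (A x).card ≤ k) ∧ (∀ x, ∀ a ∈ A x, ∀ b ∈ A x, rk a < rk b → a ∈ A b) ∧
      (∀ x y, G.Adj x y → rk x < rk y → x ∈ A y) ∧ ∀ x ∈ R, ∀ y, y ∉ R → rk x < rk y := by
  classical
  obtain ⟨ι, hfin, H, B, hH, hV, hE, hI, hB⟩ := hG
  have := Fintype.ofFinite ι
  obtain ⟨r, hr⟩ := H749.helly hH (fun v => {t | v ∈ B t}) (R : Set V) hI hV (by
    intro u hu v hv huv
    obtain ⟨t, h1, h2⟩ := hE u v (hR u hu v hv huv)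
    exact ⟨t, h1, h2⟩)
  have hRr : R ⊆ B r := fun v hv => hr v hv
  have hpos : 1 ≤ Fintype.card ι := Fintype.card_pos_iff.mpr ⟨r⟩
  obtain ⟨S, hcard, hS, bags, rk, A, h, hF, hb⟩ := grow_all hH hI hB r hRr
    (Fintype.card ι - 1) (by omega)
  have hSu : S = univ := by
    rw [← Finset.card_eq_iff_eq_univ]
    omega
  subst hSu
  have hDu : (univ : Finset ι).biUnion B = univ := by
    rw [eq_univ_iff_forall]
    intro v
    obtain ⟨t, ht⟩ := hV v
    exact mem_biUnion.mpr ⟨t, mem_univ t, ht⟩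
  rw [hDu] at h hF
  refine ⟨rk, A, ?_, fun x => h.low x (mem_univ x), fun x => h.card x (mem_univ x), ?_, ?_,
    fun x hx y hy => hF.2 x hx y (mem_univ y) hy⟩
  · intro x y hxy
    exact h.inj x (mem_univ x) y (mem_univ y) hxy
  · intro x a ha b hb' hab
    obtain ⟨c, hc, hc2⟩ := h.cov x (mem_univ x)
    exact (h.bag c hc).2 a (hc2 (mem_insert_of_mem ha)) b (hc2 (mem_insert_of_mem hb')) hab
  · intro x y hxy hlt
    obtain ⟨t, h1, h2⟩ := hE x y hxy
    obtain ⟨c, hc, hc2⟩ := hb t (mem_univ t)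
    exact (h.bag c hc).2 x (hc2 h1) y (hc2 h2) hlt

end tree

/-- **[S5a]** -/
theorem elim (W : Type) [Finite W] [Nonempty W] (G : SimpleGraph W) (w : ℕ) (R : Set W)
    (hG : TreewidthLE G w) (hR : ∀ u ∈ R, ∀ v ∈ R, u ≠ v → G.Adj u v) :
    ∃ (m : ℕ) (v : ℕ → W) (N : ℕ → Set W), (∀ i < m, v i ∉ R) ∧
      (∀ i < m, ∀ j < m, v i = v j → i = j) ∧ (∀ x, x ∉ R → ∃ i < m, v i = x) ∧
      (∀ i < m, ∀ y ∈ N i, y ∈ R ∨ ∃ j < i, v j = y) ∧ (∀ i < m, (N i).ncard ≤ w) ∧
      (∀ i < m, ∀ a ∈ N i, ∀ b ∈ N i, a ≠ b → (a ∈ R ∧ b ∈ R) ∨ (∃ j < i, v j = a ∧ b ∈ N j) ∨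
        ∃ j < i, v j = b ∧ a ∈ N j) ∧
      ∀ i < m, ∀ y, G.Adj (v i) y → (y ∈ R ∨ ∃ j < i, v j = y) → y ∈ N i := by
  classical
  have := Fintype.ofFinite W
  obtain ⟨rk, A, hinj, hlow, hcard, hcl, hadj, hfst⟩ := exists_rank hG R.toFinset (by
    intro u hu v hv huv
    exact hR u (Set.mem_toFinset.1 hu) v (Set.mem_toFinset.1 hv) huv)
  have hfst' : ∀ x ∈ R, ∀ y, y ∉ R → rk x < rk y := fun x hx y hy =>
    hfst x (Set.mem_toFinset.2 hx) y fun h => hy (Set.mem_toFinset.1 h)
  set S : Finset W := univ.filter fun x => x ∉ R with hS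
  set Q : Finset ℕ := S.image rk with hQ
  set m := Q.card with hm
  let e : Fin m ↪o ℕ := Q.orderEmbOfFin hm.symm
  have he : ∀ i : Fin m, ∃ x : W, x ∉ R ∧ rk x = e i := by
    intro i
    have h1 : e i ∈ Q := Q.orderEmbOfFin_mem hm.symm i
    obtain ⟨x, hx, hx'⟩ := mem_image.1 h1
    exact ⟨x, (mem_filter.1 hx).2, hx'⟩
  choose f hfR hfe using he
  have hsur : ∀ x, x ∉ R → ∃ i : Fin m, f i = x := by
    intro x hx
    have h1 : rk x ∈ Q := mem_image_of_mem rk (mem_filter.2 ⟨mem_univ x, hx⟩)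
    have h2 : rk x ∈ Set.range e := by
      rw [Finset.range_orderEmbOfFin]
      exact h1
    obtain ⟨i, hi⟩ := h2
    exact ⟨i, hinj ((hfe i).trans hi)⟩
  let v : ℕ → W := fun i => if h : i < m then f ⟨i, h⟩ else Classical.arbitrary W
  have hv : ∀ i (h : i < m), v i = f ⟨i, h⟩ := fun i h => dif_pos h
  have hlt : ∀ i (hi : i < m) j (hj : j < m), rk (v j) < rk (v i) → j < i := by
    intro i hi j hj h
    rw [hv i hi, hv j hj, hfe, hfe] at h
    exact e.lt_iff_lt.1 h
  have hlt' : ∀ i (hi : i < m) j, j < i → rk (v j) < rk (v i) := by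
    intro i hi j hj
    rw [hv i hi, hv j (hj.trans hi), hfe, hfe]
    exact e.lt_iff_lt.2 hj
  have hvR : ∀ i < m, v i ∉ R := by
    intro i hi
    rw [hv i hi]
    exact hfR _
  have hcov : ∀ x, x ∉ R → ∃ i < m, v i = x := by
    intro x hx
    obtain ⟨i, hi⟩ := hsur x hx
    exact ⟨i, i.2, (hv i i.2).trans hi⟩
  have hpre : ∀ i < m, ∀ y, rk y < rk (v i) → y ∈ R ∨ ∃ j < i, v j = y := by
    intro i hi y hy
    by_cases hyR : y ∈ R
    · exact Or.inl hyR
    · obtain ⟨j, hj, rfl⟩ := hcov y hyR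
      exact Or.inr ⟨j, hlt i hi j hj hy, rfl⟩
  refine ⟨m, v, fun i => (A (v i) : Set W), hvR, ?_, hcov, ?_, ?_, ?_, ?_⟩
  · intro i hi j hj hij
    rcases lt_trichotomy i j with h | h | h
    · have := hlt' j hj i h
      rw [hij] at this
      exact absurd this (lt_irrefl _)
    · exact h
    · have := hlt' i hi j h
      rw [hij] at this
      exact absurd this (lt_irrefl _)
  · intro i hi y hy
    exact hpre i hi y (hlow _ y hy)
  · intro i hi
    rw [Set.ncard_coe_finset]
    exact hcard _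
  · have key : ∀ i < m, ∀ a ∈ A (v i), ∀ b ∈ A (v i), rk a < rk b →
        (a ∈ R ∧ b ∈ R) ∨ ∃ j < i, v j = b ∧ a ∈ A (v j) := by
      intro i hi a ha b hb hab
      rcases hpre i hi b (hlow _ b hb) with hbR | ⟨j, hj, rfl⟩
      · left
        refine ⟨?_, hbR⟩
        by_contra haR
        have := hfst' b hbR a haR
        omega
      · exact Or.inr ⟨j, hj, rfl, hcl _ a ha _ hb hab⟩
    intro i hi a ha b hb hab
    rcases lt_trichotomy (rk a) (rk b) with h | h | h
    · rcases key i hi a ha b hb h with h1 | ⟨j, hj, h1, h2⟩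
      · exact Or.inl h1
      · exact Or.inr (Or.inr ⟨j, hj, h1, h2⟩)
    · exact absurd (hinj h) hab
    · rcases key i hi b hb a ha h with h1 | ⟨j, hj, h1, h2⟩
      · exact Or.inl ⟨h1.2, h1.1⟩
      · exact Or.inr (Or.inl ⟨j, hj, h1, h2⟩)
  · intro i hi y hy hy'
    have h1 : rk y < rk (v i) := by
      rcases hy' with hyR | ⟨j, hj, rfl⟩
      · exact hfst' y hyR _ (hvR i hi)
      · exact hlt' i hi j hj
    exact hadj y (v i) hy.symm h1

end Vale.Agent.P235.K5.SX.H23
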