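import Vale.Agent.P235.K5.SX.H23.Elim
import Vale.Agent.P235.K5.H12.Int

/-!
# P235, line SX, row [S5b] (second copy): the concatenation of the elimination orders
-/

set_option autoImplicit false

namespace Vale.Agent.P235.K5.SX.H23

open Vale.Agent.P235 Vale.Agent.P235.K5

section upd

variable {V : Type} {C : ℕ → Set V} {m : ℕ} {D : Set V}

theorem bef_update {s : ℕ} (hs : s ≤ m) : Bef (Function.update C m D) s = Bef C s := by
  ext x
  constructor
  · rintro ⟨t, ht, hx⟩
    rw [Function.update_of_ne (by omega)] at hx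
    exact ⟨t, ht, hx⟩
  · rintro ⟨t, ht, hx⟩
    exact ⟨t, ht, by rwa [Function.update_of_ne (by omega)]⟩

theorem bef_update_succ : Bef (Function.update C m D) (m + 1) = Bef C m ∪ D := by
  ext x
  constructor
  · rintro ⟨t, ht, hx⟩
    by_cases h : t = m
    · subst h
      rw [Function.update_self] at hx
      exact Or.inr hx
    · rw [Function.update_of_ne h] at hx
      exact Or.inl ⟨t, by omega, hx⟩
  · rintro (⟨t, ht, hx⟩ | hx)
    · exact ⟨t, by omega, by rwa [Function.update_of_ne (by omega)]⟩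
    · exact ⟨m, by omega, by rwa [Function.update_self]⟩

theorem adh_update {s : ℕ} (hs : s < m) : Adh (Function.update C m D) s = Adh C s := by
  unfold Adh
  rw [bef_update hs.le, Function.update_of_ne (by omega)]

theorem adh_update_self : Adh (Function.update C m D) m = {v | v ∈ D ∧ v ∈ Bef C m} := by
  unfold Adh
  rw [bef_update le_rfl, Function.update_self]

theorem bef_mono {s t : ℕ} (h : s ≤ t) : Bef C s ⊆ Bef C t :=
  fun _ ⟨r, hr, hx⟩ => ⟨r, by omega, hx⟩

theorem bef_succ (B : ℕ → Set V) (j : ℕ) : Bef B (j + 1) = Bef B j ∪ B j := by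
  ext x
  constructor
  · rintro ⟨t, ht, hx⟩
    by_cases h : t = j
    · exact Or.inr (h ▸ hx)
    · exact Or.inl ⟨t, by omega, hx⟩
  · rintro (⟨t, ht, hx⟩ | hx)
    · exact ⟨t, by omega, hx⟩
    · exact ⟨j, by omega, hx⟩

end upd

/-- the graph part of `Glued` -/
structure Core (k : ℕ) {V : Type} (H : SimpleGraph V) (m : ℕ) (C : ℕ → Set V) : Prop where
  card : ∀ s < m, (Adh C s).ncard ≤ k
  clique : ∀ s < m, ∀ u ∈ Adh C s, ∀ v ∈ Adh C s, u ≠ v → H.Adj u v
  sep : ∀ s < m, ∀ u v, u ∈ C s → u ∉ Bef C s → v ∈ Bef C s → v ∉ C s → ¬ H.Adj u v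
  new : ∀ s < m, ∃ v ∈ C s, v ∉ Bef C s

theorem Core.add {k : ℕ} {V : Type} {H H' : SimpleGraph V} {m : ℕ} {C : ℕ → Set V} {D : Set V}
    (h : Core k H m C) (hle : H ≤ H')
    (hold : ∀ x y, x ∈ Bef C m → y ∈ Bef C m → H'.Adj x y → H.Adj x y)
    (hcard : {v | v ∈ D ∧ v ∈ Bef C m}.ncard ≤ k)
    (hcl : ∀ u ∈ D, u ∈ Bef C m → ∀ v ∈ D, v ∈ Bef C m → u ≠ v → H'.Adj u v)
    (hsep : ∀ u ∈ D, u ∉ Bef C m → ∀ v ∈ Bef C m, v ∉ D → ¬ H'.Adj u v)
    (hnew : ∃ v ∈ D, v ∉ Bef C m) : Core k H' (m + 1) (Function.update C m D) := by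
  constructor
  · intro s hs
    by_cases hsm : s < m
    · rw [adh_update hsm]
      exact h.card s hsm
    · have : s = m := by omega
      subst this
      rw [adh_update_self]
      exact hcard
  · intro s hs u hu v hv huv
    by_cases hsm : s < m
    · rw [adh_update hsm] at hu hv
      exact hle (h.clique s hsm u hu v hv huv)
    · have : s = m := by omega
      subst this
      rw [adh_update_self] at hu hv
      exact hcl u hu.1 hu.2 v hv.1 hv.2 huv
  · intro s hs u v hu hu' hv hv'
    by_cases hsm : s < m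
    · rw [bef_update hsm.le] at hu' hv
      rw [Function.update_of_ne (by omega)] at hu hv'
      intro hadj
      exact h.sep s hsm u v hu hu' hv hv' (hold u v ⟨s, hsm, hu⟩ (bef_mono hsm.le hv) hadj)
    · have : s = m := by omega
      subst this
      rw [bef_update le_rfl] at hu' hv
      rw [Function.update_self] at hu hv'
      exact hsep u hu hu' v hv hv'
  · intro s hs
    by_cases hsm : s < m
    · rw [bef_update hsm.le, Function.update_of_ne (by omega)]
      exact h.new s hsm
    · have : s = m := by omega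
      subst this
      rw [bef_update le_rfl, Function.update_self]
      exact hnew

/-- the part about the coarse bags -/
structure Ph {V : Type} (B : ℕ → Set V) (T : ℕ → Prop) (m : ℕ) (C : ℕ → Set V) (phi : ℕ → ℕ) :
    Prop where
  mono : ∀ s s', s ≤ s' → s' < m → phi s ≤ phi s'
  sub : ∀ s < m, C s ⊆ B (phi s)
  pP : ∀ s < m, ¬ T (phi s) → C s = B (phi s) ∧ Adh C s = Adh B (phi s)
  pT : ∀ s < m, T (phi s) → ∃ v, v ∉ Adh C s ∧ C s = insert v (Adh C s)

theorem Ph.add {V : Type} {B : ℕ → Set V} {T : ℕ → Prop} {m : ℕ} {C : ℕ → Set V} {phi : ℕ → ℕ}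
    {D : Set V} {j : ℕ} (h : Ph B T m C phi) (hj : ∀ s < m, phi s ≤ j) (hsub : D ⊆ B j)
    (hP : ¬ T j → D = B j ∧ {v | v ∈ D ∧ v ∈ Bef C m} = Adh B j)
    (hT : T j → ∃ v, v ∉ {v | v ∈ D ∧ v ∈ Bef C m} ∧ D = insert v {v | v ∈ D ∧ v ∈ Bef C m}) :
    Ph B T (m + 1) (Function.update C m D) (Function.update phi m j) := by
  constructor
  · intro s s' hs hs'
    by_cases h1 : s' = m
    · by_cases h2 : s = m
      · rw [h1, h2]
      · rw [h1, Function.update_self, Function.update_of_ne h2]
        exact hj s (by omega)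
    · rw [Function.update_of_ne (by omega), Function.update_of_ne h1]
      exact h.mono s s' hs (by omega)
  · intro s hs
    by_cases h1 : s = m
    · rw [h1, Function.update_self, Function.update_self]
      exact hsub
    · rw [Function.update_of_ne h1, Function.update_of_ne h1]
      exact h.sub s (by omega)
  · intro s hs
    by_cases h1 : s = m
    · subst h1
      rw [Function.update_self, Function.update_self, adh_update_self]
      exact hP
    · rw [Function.update_of_ne h1, Function.update_of_ne h1, adh_update (by omega)]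
      exact h.pP s (by omega)
  · intro s hs
    by_cases h1 : s = m
    · subst h1
      rw [Function.update_self, Function.update_self, adh_update_self]
      exact hT
    · rw [Function.update_of_ne h1, Function.update_of_ne h1, adh_update (by omega)]
      exact h.pT s (by omega)

/-- `elim` for a set of vertices -/
theorem elimV {V : Type} [Finite V] (H : SimpleGraph V) (D R : Set V) (w : ℕ) (hD : D.Nonempty)
    (hRD : R ⊆ D) (hR : ∀ u ∈ R, ∀ v ∈ R, u ≠ v → H.Adj u v) (hG : TreewidthLE (H.induce D) w) :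
    ∃ (m : ℕ) (v : ℕ → V) (N : ℕ → Set V), (∀ i < m, v i ∈ D ∧ v i ∉ R) ∧
      (∀ i < m, ∀ j < m, v i = v j → i = j) ∧ (∀ x ∈ D, x ∉ R → ∃ i < m, v i = x) ∧
      (∀ i < m, ∀ y ∈ N i, y ∈ R ∨ ∃ j < i, v j = y) ∧ (∀ i < m, (N i).ncard ≤ w) ∧
      (∀ i < m, ∀ a ∈ N i, ∀ b ∈ N i, a ≠ b → (a ∈ R ∧ b ∈ R) ∨ (∃ j < i, v j = a ∧ b ∈ N j) ∨
        ∃ j < i, v j = b ∧ a ∈ N j) ∧
      ∀ i < m, ∀ y, H.Adj (v i) y → (y ∈ R ∨ ∃ j < i, v j = y) → y ∈ N i := by
  have : Nonempty D := hD.to_subtype
  obtain ⟨m, v, N, h1, h2, h3, h4, h5, h6, h7⟩ := elim D (H.induce D) w {x | x.1 ∈ R} hG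
    (fun u hu v hv huv => hR u.1 hu v.1 hv fun h => huv (Subtype.ext h))
  refine ⟨m, fun i => (v i).1, fun i => Subtype.val '' N i, fun i hi => ⟨(v i).2, h1 i hi⟩,
    fun i hi j hj hij => h2 i hi j hj (Subtype.ext hij), ?_, ?_, ?_, ?_, ?_⟩
  · intro x hx hxR
    obtain ⟨i, hi, hi'⟩ := h3 ⟨x, hx⟩ hxR
    exact ⟨i, hi, congrArg Subtype.val hi'⟩
  · rintro i hi _ ⟨y, hy, rfl⟩
    rcases h4 i hi y hy with h | ⟨j, hj, h⟩
    · exact Or.inl h
    · exact Or.inr ⟨j, hj, congrArg Subtype.val h⟩
  · intro i hi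
    rw [Set.ncard_image_of_injective _ Subtype.val_injective]
    exact h5 i hi
  · rintro i hi _ ⟨a, ha, rfl⟩ _ ⟨b, hb, rfl⟩ hab
    rcases h6 i hi a ha b hb (fun h => hab (congrArg Subtype.val h)) with
      h | ⟨j, hj, h, h'⟩ | ⟨j, hj, h, h'⟩
    · exact Or.inl h
    · exact Or.inr (Or.inl ⟨j, hj, congrArg Subtype.val h, b, h', rfl⟩)
    · exact Or.inr (Or.inr ⟨j, hj, congrArg Subtype.val h, a, h', rfl⟩)
  · intro i hi y hadj hy
    have hyD : y ∈ D := by
      rcases hy with h | ⟨j, hj, h⟩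
      · exact hRD h
      · rw [← h]
        exact (v j).2
    refine ⟨⟨y, hyD⟩, h7 i hi ⟨y, hyD⟩ hadj ?_, rfl⟩
    rcases hy with h | ⟨j, hj, h⟩
    · exact Or.inl h
    · exact Or.inr ⟨j, hj, Subtype.ext h⟩

/-- a star -/
def star {V : Type} (z : V) (N : Set V) (hz : z ∉ N) : SimpleGraph V where
  Adj x y := (x = z ∧ y ∈ N) ∨ (y = z ∧ x ∈ N)
  symm := ⟨fun _ _ h => h.symm⟩
  loopless := ⟨fun x h => by
    rcases h with ⟨rfl, h⟩ | ⟨rfl, h⟩
    · exact hz h
    · exact hz h⟩

/-- the steps inside a piece of type T -/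
theorem inner {V : Type} {w : ℕ} {H H₀ : SimpleGraph V} {B : ℕ → Set V}
    {T : ℕ → Prop} {j m : ℕ} {C : ℕ → Set V} {phi : ℕ → ℕ} (hTj : T j)
    (hsepB : ∀ u v, u ∈ B j → u ∉ Bef B j → v ∈ Bef B j → v ∉ B j → ¬ H.Adj u v)
    (hclB : ∀ u ∈ Adh B j, ∀ v ∈ Adh B j, u ≠ v → H.Adj u v)
    (hle : H ≤ H₀) (hcore : Core (max 3 w) H₀ m C) (hph : Ph B T m C phi)
    (hlt : ∀ s < m, phi s ≤ j) (hinv : ∀ x y, H₀.Adj x y → H.Adj x y ∨ x ∈ Bef C m ∧ y ∈ Bef C m)
    (hbef : Bef C m = Bef B j) {M : ℕ} {v : ℕ → V} {N : ℕ → Set V}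
    (h1 : ∀ i < M, v i ∈ B j ∧ v i ∉ Adh B j) (h2 : ∀ i < M, ∀ i' < M, v i = v i' → i = i')
    (h4 : ∀ i < M, ∀ y ∈ N i, y ∈ Adh B j ∨ ∃ i' < i, v i' = y) (h5 : ∀ i < M, (N i).ncard ≤ w)
    (h6 : ∀ i < M, ∀ a ∈ N i, ∀ b ∈ N i, a ≠ b → (a ∈ Adh B j ∧ b ∈ Adh B j) ∨
      (∃ i' < i, v i' = a ∧ b ∈ N i') ∨ ∃ i' < i, v i' = b ∧ a ∈ N i')
    (h7 : ∀ i < M, ∀ y, H.Adj (v i) y → (y ∈ Adh B j ∨ ∃ i' < i, v i' = y) → y ∈ N i) :
    ∀ i ≤ M, ∃ (H' : SimpleGraph V) (C' : ℕ → Set V) (phi' : ℕ → ℕ), H ≤ H' ∧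
      Core (max 3 w) H' (m + i) C' ∧ Ph B T (m + i) C' phi' ∧ (∀ s < m + i, phi' s ≤ j) ∧
      (∀ x y, H'.Adj x y → H.Adj x y ∨ x ∈ Bef C' (m + i) ∧ y ∈ Bef C' (m + i)) ∧
      Bef C' (m + i) = Bef B j ∪ {x | ∃ i' < i, v i' = x} ∧
      (∀ i' < i, ∀ a ∈ N i', H'.Adj (v i') a) ∧ (∀ s < m, C' s = C s ∧ phi' s = phi s) ∧
      ∀ i' < i, phi' (m + i') = j ∧ v i' ∈ C' (m + i') := by
  intro i
  induction i with
  | zero =>
    intro _
    refine ⟨H₀, C, phi, hle, hcore, hph, hlt, hinv, ?_, fun _ h => absurd h (Nat.not_lt_zero _),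
      fun _ _ => ⟨rfl, rfl⟩, fun _ h => absurd h (Nat.not_lt_zero _)⟩
    rw [Nat.add_zero, hbef]
    ext x
    constructor
    · exact fun h => Or.inl h
    · rintro (h | ⟨i', hi', -⟩)
      · exact h
      · exact absurd hi' (Nat.not_lt_zero _)
  | succ i ih =>
    intro hi
    obtain ⟨H', C', phi', g1, g2, g3, g4, g5, g6, g7, g8, g9⟩ := ih (by omega)
    have hiM : i < M := by omega
    have hvB : v i ∉ Bef B j := fun h => (h1 i hiM).2 ⟨(h1 i hiM).1, h⟩
    have hvn : v i ∉ Bef C' (m + i) := by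
      rw [g6]
      rintro (h | ⟨i', hi', h⟩)
      · exact hvB h
      · have := h2 i' (by omega) i hiM h
        omega
    have hNs : N i ⊆ Bef C' (m + i) := by
      intro y hy
      rw [g6]
      rcases h4 i hiM y hy with h | h
      · exact Or.inl h.2
      · exact Or.inr h
    have hvN : v i ∉ N i := fun h => hvn (hNs h)
    set H'' := H' ⊔ star (v i) (N i) hvN with hH''
    have hadj : ∀ x y, H''.Adj x y ↔ H'.Adj x y ∨ (x = v i ∧ y ∈ N i) ∨ (y = v i ∧ x ∈ N i) :=
      fun x y => Iff.rfl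
    set D := insert (v i) (N i) with hD
    have hDadh : {x | x ∈ D ∧ x ∈ Bef C' (m + i)} = N i := by
      ext x
      constructor
      · rintro ⟨hx | hx, hx'⟩
        · exact absurd (hx ▸ hx') hvn
        · exact hx
      · exact fun hx => ⟨Or.inr hx, hNs hx⟩
    have hNB : N i ⊆ B j := by
      intro y hy
      rcases h4 i hiM y hy with h | ⟨i', hi', rfl⟩
      · exact h.1
      · exact (h1 i' (by omega)).1
    have hDB : D ⊆ B j := by
      intro y hy
      rcases hy with rfl | hy
      · exact (h1 i hiM).1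
      · exact hNB hy
    have hle' : H' ≤ H'' := le_sup_left
    have hnewB : ∀ y, H'.Adj (v i) y → H.Adj (v i) y := by
      intro y hy
      rcases g5 _ _ hy with h | h
      · exact h
      · exact absurd h.1 hvn
    have hcore' := g2.add (D := D) hle' (by
      intro x y hx hy hxy
      rcases (hadj x y).1 hxy with h | ⟨rfl, -⟩ | ⟨rfl, -⟩
      · exact h
      · exact absurd hx hvn
      · exact absurd hy hvn) (by
      rw [hDadh]
      exact (h5 i hiM).trans (le_max_right _ _)) (by
      intro a ha ha' b hb hb' hab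
      have haN : a ∈ N i := hDadh ▸ (⟨ha, ha'⟩ : a ∈ {x | x ∈ D ∧ x ∈ Bef C' (m + i)})
      have hbN : b ∈ N i := hDadh ▸ (⟨hb, hb'⟩ : b ∈ {x | x ∈ D ∧ x ∈ Bef C' (m + i)})
      rcases h6 i hiM a haN b hbN hab with ⟨h, h'⟩ | ⟨i', hi', h, h'⟩ | ⟨i', hi', h, h'⟩
      · exact hle' (g1 (hclB a h b h' hab))
      · rw [← h]
        exact hle' (g7 i' hi' b h')
      · rw [← h]
        exact hle' (g7 i' hi' a h').symm) (by
      intro a ha ha' b hb hb' hab
      have hav : a = v i := by
        rcases ha with h | h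
        · exact h
        · exact absurd (hNs h) ha'
      subst hav
      rcases (hadj _ _).1 hab with h | ⟨-, h⟩ | ⟨h, -⟩
      · have h8 := hnewB b h
        have h9 := hb
        rw [g6] at h9
        rcases h9 with h9 | h9
        · by_cases hbB : b ∈ B j
          · exact hb' (Or.inr (h7 i hiM b h8 (Or.inl ⟨hbB, h9⟩)))
          · exact hsepB _ b (h1 i hiM).1 hvB h9 hbB h8
        · exact hb' (Or.inr (h7 i hiM b h8 (Or.inr h9)))
      · exact hb' (Or.inr h)
      · exact hb' (Or.inl h)) ⟨v i, Or.inl rfl, hvn⟩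
    have hph' := g3.add (D := D) (j := j) g4 hDB (fun h => absurd hTj h) (fun _ => by
      rw [hDadh]
      exact ⟨v i, hvN, rfl⟩)
    have hb' : Bef (Function.update C' (m + i) D) (m + i + 1) =
        Bef B j ∪ {x | ∃ i' < i + 1, v i' = x} := by
      rw [bef_update_succ, g6]
      ext x
      constructor
      · rintro ((h | ⟨i', hi', h⟩) | h)
        · exact Or.inl h
        · exact Or.inr ⟨i', by omega, h⟩
        · rcases h with h | h
          · exact Or.inr ⟨i, by omega, h.symm⟩
          · rcases h4 i hiM x h with h | ⟨i', hi', h⟩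
            · exact Or.inl h.2
            · exact Or.inr ⟨i', by omega, h⟩
      · rintro (h | ⟨i', hi', h⟩)
        · exact Or.inl (Or.inl h)
        · by_cases hii : i' = i
          · subst hii
            exact Or.inr (Or.inl h.symm)
          · exact Or.inl (Or.inr ⟨i', by omega, h⟩)
    refine ⟨H'', Function.update C' (m + i) D, Function.update phi' (m + i) j, g1.trans hle',
      hcore', hph', ?_, ?_, hb', ?_, ?_, ?_⟩
    · intro s hs
      by_cases h : s = m + i
      · rw [h, Function.update_self]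
      · rw [Function.update_of_ne h]
        exact g4 s (by omega)
    · intro x y hxy
      have hs : Bef C' (m + i) ⊆ Bef (Function.update C' (m + i) D) (m + i + 1) := by
        rw [bef_update_succ]
        exact Set.subset_union_left
      have hv' : v i ∈ Bef (Function.update C' (m + i) D) (m + i + 1) := by
        rw [bef_update_succ]
        exact Or.inr (Or.inl rfl)
      rcases (hadj x y).1 hxy with h | ⟨rfl, h⟩ | ⟨rfl, h⟩
      · rcases g5 x y h with h | ⟨h, h'⟩
        · exact Or.inl h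
        · exact Or.inr ⟨hs h, hs h'⟩
      · exact Or.inr ⟨hv', hs (hNs h)⟩
      · exact Or.inr ⟨hs (hNs h), hv'⟩
    · intro i' hi' a ha
      by_cases hii : i' = i
      · subst hii
        exact Or.inr (Or.inl ⟨rfl, ha⟩)
      · exact hle' (g7 i' (by omega) a ha)
    · intro s hs
      rw [Function.update_of_ne (by omega), Function.update_of_ne (by omega)]
      exact g8 s hs
    · intro i' hi'
      by_cases hii : i' = i
      · subst hii
        rw [Function.update_self, Function.update_self]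
        exact ⟨rfl, Or.inl rfl⟩
      · rw [Function.update_of_ne (by omega), Function.update_of_ne (by omega)]
        exact g9 i' (by omega)

/-- the coarse bags before `j` are processed -/
theorem outer {V : Type} [Finite V] {w : ℕ} {H : SimpleGraph V} {n : ℕ} {B : ℕ → Set V}
    {T : ℕ → Prop} (hB : Glued 3 H n B) (hT : ∀ t < n, T t → TreewidthLE (H.induce (B t)) w) :
    ∀ j ≤ n, ∃ (H' : SimpleGraph V) (m : ℕ) (C : ℕ → Set V) (phi : ℕ → ℕ), H ≤ H' ∧
      Core (max 3 w) H' m C ∧ Ph B T m C phi ∧ (∀ s < m, phi s < j) ∧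
      (∀ x y, H'.Adj x y → H.Adj x y ∨ x ∈ Bef C m ∧ y ∈ Bef C m) ∧ Bef C m = Bef B j ∧
      ∀ t < j, ∀ v ∈ B t, ∃ s < m, phi s ≤ t ∧ v ∈ C s := by
  classical
  intro j
  induction j with
  | zero =>
    intro _
    refine ⟨H, 0, B, fun _ => 0, le_rfl, ⟨fun _ h => absurd h (Nat.not_lt_zero _),
      fun _ h => absurd h (Nat.not_lt_zero _), fun _ h => absurd h (Nat.not_lt_zero _),
      fun _ h => absurd h (Nat.not_lt_zero _)⟩, ⟨fun _ _ _ h => absurd h (Nat.not_lt_zero _),
      fun _ h => absurd h (Nat.not_lt_zero _), fun _ h => absurd h (Nat.not_lt_zero _),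
      fun _ h => absurd h (Nat.not_lt_zero _)⟩, fun _ h => absurd h (Nat.not_lt_zero _),
      fun _ _ h => Or.inl h, rfl, fun _ h => absurd h (Nat.not_lt_zero _)⟩
  | succ j ih =>
    intro hj
    obtain ⟨H', m, C, phi, g1, g2, g3, g4, g5, g6, g7⟩ := ih (by omega)
    have hjn : j < n := by omega
    by_cases hsub : B j ⊆ Bef B j
    · -- nothing new
      have e : Bef B (j + 1) = Bef B j := by
        rw [bef_succ]
        exact Set.union_eq_self_of_subset_right hsub
      refine ⟨H', m, C, phi, g1, g2, g3, fun s hs => by have := g4 s hs; omega, g5,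
        g6.trans e.symm, fun t ht x hx => ?_⟩
      by_cases htj : t = j
      · subst htj
        obtain ⟨t', ht', hx'⟩ := hsub hx
        obtain ⟨s, hs, h, h'⟩ := g7 t' ht' x hx'
        exact ⟨s, hs, by omega, h'⟩
      · exact g7 t (by omega) x hx
    · by_cases hTj : T j
      · have hne : (B j).Nonempty := by
          obtain ⟨x, hx, -⟩ := Set.not_subset.1 hsub
          exact ⟨x, hx⟩
        obtain ⟨M, v, N, h1, h2, h3, h4, h5, h6, h7⟩ := elimV H (B j) (Adh B j) w hne
          (fun x hx => hx.1) (hB.clique j hjn) (hT j hjn hTj)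
        obtain ⟨H'', C', phi', k1, k2, k3, k4, k5, k6, k7, k8, k9⟩ :=
          inner hTj (hB.sep j hjn) (hB.clique j hjn) g1 g2 g3
            (fun s hs => (g4 s hs).le) g5 g6 h1 h2 h4 h5 h6 h7 M le_rfl
        refine ⟨H'', m + M, C', phi', k1, k2, k3, fun s hs => Nat.lt_succ_of_le (k4 s hs), k5,
          ?_, ?_⟩
        · rw [k6, bef_succ]
          ext x
          constructor
          · rintro (h | ⟨i, hi, rfl⟩)
            · exact Or.inl h
            · exact Or.inr (h1 i hi).1
          · rintro (h | h)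
            · exact Or.inl h
            · by_cases hx : x ∈ Bef B j
              · exact Or.inl hx
              · obtain ⟨i, hi, h'⟩ := h3 x h fun h8 => hx h8.2
                exact Or.inr ⟨i, hi, h'⟩
        · have old : ∀ t < j, ∀ x ∈ B t, ∃ s < m + M, phi' s ≤ t ∧ x ∈ C' s := by
            intro t ht x hx
            obtain ⟨s, hs, h, h'⟩ := g7 t ht x hx
            refine ⟨s, by omega, ?_, ?_⟩
            · rw [(k8 s hs).2]
              exact h
            · rw [(k8 s hs).1]
              exact h'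
          intro t ht x hx
          by_cases htj : t = j
          · subst htj
            by_cases hx' : x ∈ Bef B t
            · obtain ⟨t', ht', hx''⟩ := hx'
              obtain ⟨s, hs, h, h'⟩ := old t' ht' x hx''
              exact ⟨s, hs, by omega, h'⟩
            · obtain ⟨i, hi, rfl⟩ := h3 x hx fun h8 => hx' h8.2
              obtain ⟨h, h'⟩ := k9 i hi
              exact ⟨m + i, by omega, h.le, h'⟩
          · exact old t (by omega) x hx
      · -- a piece of type P
        have hadh : {x | x ∈ B j ∧ x ∈ Bef C m} = Adh B j := by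
          rw [g6]
          rfl
        have hcore' := g2.add (D := B j) le_rfl (fun _ _ _ _ h => h) (by
          rw [hadh]
          exact (hB.card j hjn).trans (le_max_left _ _)) (by
          intro a ha ha' b hb hb' hab
          rw [g6] at ha' hb'
          exact g1 (hB.clique j hjn a ⟨ha, ha'⟩ b ⟨hb, hb'⟩ hab)) (by
          intro a ha ha' b hb hb' hab
          rcases g5 a b hab with h | h
          · rw [g6] at ha' hb
            exact hB.sep j hjn a b ha ha' hb hb' h
          · exact ha' h.1) (by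
          obtain ⟨x, hx, hx'⟩ := Set.not_subset.1 hsub
          exact ⟨x, hx, by rwa [g6]⟩)
        have hph' := g3.add (D := B j) (j := j) (fun s hs => (g4 s hs).le) subset_rfl
          (fun _ => ⟨rfl, hadh⟩) (fun h => absurd h hTj)
        refine ⟨H', m + 1, Function.update C m (B j), Function.update phi m j, g1, hcore', hph',
          ?_, ?_, ?_, ?_⟩
        · intro s hs
          by_cases h : s = m
          · rw [h, Function.update_self]
            omega
          · rw [Function.update_of_ne h]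
            have := g4 s (by omega)
            omega
        · intro x y hxy
          rcases g5 x y hxy with h | ⟨h, h'⟩
          · exact Or.inl h
          · rw [bef_update_succ]
            exact Or.inr ⟨Or.inl h, Or.inl h'⟩
        · rw [bef_update_succ, bef_succ, g6]
        · intro t ht x hx
          by_cases htj : t = j
          · subst htj
            exact ⟨m, by omega, by rw [Function.update_self], by rwa [Function.update_self]⟩
          · obtain ⟨s, hs, h, h'⟩ := g7 t (by omega) x hx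
            refine ⟨s, by omega, ?_, ?_⟩
            · rw [Function.update_of_ne (by omega)]
              exact h
            · rw [Function.update_of_ne (by omega)]
              exact h'

/-- **[S5]** -/
theorem refine' {V : Type} [Finite V] {w : ℕ} {H : SimpleGraph V} {n : ℕ} {B : ℕ → Set V}
    {T : ℕ → Prop} (hB : Glued 3 H n B) (hT : ∀ t < n, T t → TreewidthLE (H.induce (B t)) w) :
    ∃ (H' : SimpleGraph V) (m : ℕ) (C : ℕ → Set V) (phi : ℕ → ℕ), H ≤ H' ∧
      Glued (max 3 w) H' m C ∧ Monotone phi ∧ (∀ s < m, phi s < n) ∧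
      (∀ s < m, ∃ v ∈ C s, v ∉ Bef C s) ∧ (∀ s < m, C s ⊆ B (phi s)) ∧
      (∀ s < m, ¬ T (phi s) → C s = B (phi s) ∧ Adh C s = Adh B (phi s)) ∧
      (∀ s < m, T (phi s) → ∃ v, v ∉ Adh C s ∧ C s = insert v (Adh C s)) ∧
      ∀ t < n, ∀ v ∈ B t, ∃ s < m, phi s ≤ t ∧ v ∈ C s := by
  classical
  obtain ⟨H', m, C, phi, g1, g2, g3, g4, g5, g6, g7⟩ := outer hB hT n le_rfl
  refine ⟨H', m, C, fun s => if s < m then phi s else n, g1,
    ⟨fun v => ?_, g2.card, g2.clique, g2.sep⟩, ?_, ?_, g2.new, ?_, ?_, ?_, ?_⟩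
  · obtain ⟨t, ht, hv⟩ := hB.cover v
    obtain ⟨s, hs, -, h⟩ := g7 t ht v hv
    exact ⟨s, hs, h⟩
  · intro s s' hs
    show (if s < m then phi s else n) ≤ (if s' < m then phi s' else n)
    by_cases h' : s' < m
    · rw [if_pos (by omega), if_pos h']
      exact g3.mono s s' hs h'
    · rw [if_neg h']
      split_ifs with h
      · exact (g4 s h).le
      · exact le_rfl
  · intro s hs
    show (if s < m then phi s else n) < n
    rw [if_pos hs]
    exact g4 s hs
  · intro s hs
    show C s ⊆ B (if s < m then phi s else n)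
    rw [if_pos hs]
    exact g3.sub s hs
  · intro s hs
    show ¬ T (if s < m then phi s else n) → C s = B (if s < m then phi s else n) ∧
      Adh C s = Adh B (if s < m then phi s else n)
    rw [if_pos hs]
    exact g3.pP s hs
  · intro s hs
    show T (if s < m then phi s else n) → _
    rw [if_pos hs]
    exact g3.pT s hs
  · intro t ht x hx
    obtain ⟨s, hs, h, h'⟩ := g7 t ht x hx
    refine ⟨s, hs, ?_, h'⟩
    show (if s < m then phi s else n) ≤ t
    rw [if_pos hs]
    exact h

end Vale.Agent.P235.K5.SX.H23
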