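import Vale.Agent.P235.K5.SX.Defs
import Vale.Agent.P235.K5.SX.H23.Cat

/-!
# P235, line SX, row [S5]
-/

set_option autoImplicit false

namespace Vale.Agent.P235.K5.SX.H23

open Vale.Agent.P235 Vale.Agent.P235.K5

/-- **[S5]** -/
theorem s5 : S5Stmt := by
  intro w V _ H n B T hB hT
  obtain ⟨H', m, C, phi, h1, h2, h3, h4, h5, h6, h7, h8, h9⟩ := refine' hB hT
  exact ⟨H', m, C, phi, ⟨h1, h2, h3, h4, h5, h6, h7, h8, h9⟩⟩

end Vale.Agent.P235.K5.SX.H23
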